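-- RD-BASE b37bf44f54ff7041d9b0cf40ecff224a15f19954
import Vale.Agent.P028.MathlibUsed
import Vale.Agent.P028.RD.H734.Inst
import Vale.Agent.P028.H734.LeakP
import Vale.Agent.P028.RD.H564.Shift
import Vale.Agent.P028.RD.H309.OutN
attribute [-instance] ProperSMul.toContinuousSMul IsTopologicalTorsor.toContinuousSMul IdemSemiring.toCanonicallyOrderedAdd IdemSemiring.toMulLeftMono IdemSemiring.toMulRightMono AddQuantale.instAddLeftMono AddQuantale.instAddRightMono Quantale.instMulLeftMono Quantale.instMulRightMono FiniteDimensional.rclike_to_real IsScalarTower.complexToReal FiniteDimensional.complexToReal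

/-!
# The filled numbers as leaking words; pairs and their shifted numbers; the kernel inequality
-/

namespace Vale.P028.SK

open Finset CF RN

variable {g : Cfg}

/-! ### The instance -/

open Classical in
/-- **The family of the filled numbers is an instance of the leaking words.** -/
theorem lkX {c1 c : ℝ} (h1 : 0 < c1) {x : ℕ} (hz : 2 ≤ c1 * zs g) (hc : 0 ≤ c) (hc1 : c < 1)
    (hx : zs g ≤ x) {β : Type*} {S : Finset β} {nu cc : β → ℕ} {hl : β → ℤ}
    (hinj : ∀ e ∈ S, ∀ e' ∈ S, nu e = nu e' → hl e = hl e' → e = e')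
    (hpos : ∀ e ∈ S, 0 < nu e) (hgd : ∀ e ∈ S, ∀ p, (Qc g (nu e)).factorization p ≤ Eb g)
    (n : ℕ) {U : Finset ℕ} {Lz : Finset ℤ}
    (hU : ∀ e ∈ S, ∀ m, Fil g x (cc e) (nu e) m → nu e / m ∈ U) (hLz : ∀ e ∈ S, hl e ∈ Lz)
    (p : ℝ) :
    Dp.LkP (U ×ˢ Lz) (relX g) (fun a => f g a.1) S (Icc 1 n) cc (fun e => f g (nu e))
      (fun e m => (nu e / m, hl e)) (fun i e m => wL g c1 c x i (cc e) (nu e) m)
      (fun _ _ => 1) p (Real.exp (2 * c * c1)) (Real.exp (2 * c * c1)) (1 / (1 - c)) where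
  L_nonneg := fun i e _ m _ => wL_nonneg h1.le hc _ _ _ _ _
  μ_pos := fun _ _ _ _ => one_pos
  mem := fun e he m _ hne => mem_product.2 ⟨hU e he m (wL_ne hne), hLz e he⟩
  mono := fun e _ i hi m _ => wL_mono h1 hc hi
  mass := fun e he => by
    simp only [Real.one_rpow, mul_one]
    exact wL_mass h1 hc (hpos e he) n
  out := fun e he i hi D hD hDc => by
    have hm : ∀ m, Fil g x (cc e) (nu e) m → (nu e / m, hl e) ∈ U ×ˢ Lz := fun m hm =>
      mem_product.2 ⟨hU e he m hm, hLz e he⟩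
    exact wL_out h1 hc hx hi n (fun y => D (y, hl e))
      (fun m h => hD _ (hm m h)) fun m m' h h' hs => hDc _ (hm m h) _ (hm m' h') ⟨hs, rfl⟩
  col := fun i y _ => by
    simp only [mul_one]
    set S' := S.filter (fun e => hl e = y.2) with hS'
    have hS'S : ∀ e ∈ S', e ∈ S ∧ hl e = y.2 := fun e he => mem_filter.1 he
    refine le_trans (le_of_eq ?_) (wL_col h1 hz hc hc1 hx S' nu cc (fun e he e' he' h => ?_)
      (fun e he => hgd e (hS'S e he).1) i y.1 n)
    · refine sum_congr ?_ fun _ _ => rfl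
      ext e
      simp only [mem_filter, mem_product, hS', Prod.ext_iff]
      tauto
    · have h1 := hS'S e (Finset.mem_coe.1 he)
      have h2 := hS'S e' (Finset.mem_coe.1 he')
      exact hinj e h1.1 e' h2.1 h (h1.2.trans h2.2.symm)

/-! ### The pairs -/

section

variable {x i R R' u1 u2 v1 v2 H : ℕ}

theorem PairX.dvd (h : PairX g x i R R' u1 u2 v1 v2 H) : v2 ∣ R' / v1 := by
  have h1 : v2 ∣ R' / v1 * u2 := ⟨H, by rw [← h.rel, mul_comm]⟩
  exact Nat.Coprime.dvd_of_dvd_mul_right h.cop.symm h1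

theorem PairX.dvd' (h : PairX g x i R R' u1 u2 v1 v2 H) : v2 ∣ R' :=
  h.dvd.trans (Nat.div_dvd_of_dvd h.fil'.dvd)

theorem PairX.H_pos (h : PairX g x i R R' u1 u2 v1 v2 H) : 0 < H := by
  rcases Nat.eq_zero_or_pos H with h0 | h0
  · have h1 := h.rel
    rw [h0, zero_mul] at h1
    have := Nat.mul_pos h.fil'.div_pos h.pos.1
    omega
  · exact h0

theorem PairX.H_eq (h : PairX g x i R R' u1 u2 v1 v2 H) : H * v1 = R' / v2 * u2 := by
  have h1 : H * v1 * v2 = R' / v2 * u2 * v2 := by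
    calc H * v1 * v2 = H * v2 * v1 := by ring
      _ = R' / v1 * u2 * v1 := by rw [h.rel]
      _ = R' / v1 * v1 * u2 := by ring
      _ = R' * u2 := by rw [h.fil'.mul_div]
      _ = R' / v2 * v2 * u2 := by rw [Nat.div_mul_cancel h.dvd']
      _ = _ := by ring
  exact Nat.eq_of_mul_eq_mul_right h.pos.2 h1

/-- the primes of the pattern are not primes of the fill -/
theorem PairX.not_dvd (h : PairX g x i R R' u1 u2 v1 v2 H) {p : ℕ}
    (hp : p ∈ (u2 * v2).primeFactors) : v1.factorization p = 0 ∧ u1.factorization p = 0 := by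
  have h1 := h.dev p hp
  constructor
  · by_contra hne
    have h2 : p ∈ v1.primeFactors := by
      rw [← Nat.support_factorization, Finsupp.mem_support_iff]
      exact hne
    have := (h.fil'.2.2 p h2).2.2.1
    omega
  · by_contra hne
    have h2 : p ∈ u1.primeFactors := by
      rw [← Nat.support_factorization, Finsupp.mem_support_iff]
      exact hne
    have := (h.fil.2.2 p h2).2.2.1
    omega

theorem PairX.shp (h : PairX g x i R R' u1 u2 v1 v2 H) (hx : zs g ≤ x)
    (hgd : ∀ p, (Qc g R).factorization p ≤ Eb g) : ShP g x R' u2 v2 := by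
  refine ⟨h.fil'.pos, h.pos.1, h.cop, h.dvd', hx, fun p hp => ?_⟩
  obtain ⟨d1, d2, d3, d4⟩ := h.dev p hp
  have hpN := le_N_of_lt_kc d3
  have hpp := Nat.prime_of_mem_primeFactors hp
  have hPO : p ∈ PO (zs g) (N g) := mem_PO.2 ⟨hpp, by omega, hpN⟩
  refine ⟨d1, d4, ?_⟩
  -- the cells of `H`
  have hH0 := h.H_pos
  have hY0 := h.fil'.div_pos
  have hfac : ∀ q, H.factorization q + v2.factorization q =
      (R' / v1).factorization q + u2.factorization q := by
    intro q
    have e1 : (H * v2).factorization q = (R' / v1 * u2).factorization q := by rw [h.rel]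
    rwa [Nat.factorization_mul hH0.ne' h.pos.2.ne', Nat.factorization_mul hY0.ne' h.pos.1.ne',
      Finsupp.add_apply, Finsupp.add_apply] at e1
  have hsp : ∀ q : ℕ, q ≤ N g → NT.Split (f g) (thr g)
      (NT.cell g.V (f g) (thr g) (N g) q (R' / v1)) q →
      H.factorization q = (R' / v1).factorization q := by
    intro q _ hs
    by_cases hq : q ∈ (u2 * v2).primeFactors
    · exfalso
      obtain ⟨-, -, -, e4⟩ := h.dev q hq
      have e5 := not_Spl_of_lt_kc e4
      exact e5 ((h.fil'.Spl hx q).1 hs)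
    · have e1 : (u2 * v2).factorization q = 0 := by
        rw [← Nat.support_factorization, Finsupp.mem_support_iff, not_not] at hq
        exact hq
      rw [Nat.factorization_mul h.pos.1.ne' h.pos.2.ne', Finsupp.add_apply] at e1
      have := hfac q
      omega
  have hkc : kc g H p = kc g R' p := (kc_congr_split hsp p).trans (h.fil'.kc hx p)
  -- the label of `H` at `p`
  have hE : Eb g ≠ 0 := by
    have e1 := hgd p
    rw [Qc_fac, if_pos hPO] at e1
    omega
  have hu0 := (h.not_dvd hp).2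
  have hv0 := (h.not_dvd hp).1
  have hjN : N g - p < N g := by
    have := hpp.pos
    omega
  set j : Fin (N g) := ⟨N g - p, hjN⟩ with hj
  have hjp : N g - (j : ℕ) = p := by simp only [hj]; omega
  have e1 : wo g (R / u1) j ≠ 0 := by
    rw [wo_ne_iff, hjp, Md_fac, if_pos hPO, h.fil.kc hx, h.fil.fac, hu0]
    exact ⟨by omega, hE⟩
  have e2 : wo g H j = wo g (R / u1) j := h.sf.2 j (by simp only [hj]; omega)
  rw [← e2, wo_ne_iff, hjp, Md_fac, if_pos hPO, hkc] at e1
  -- the number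
  have e3 : (H * v1).factorization p = (R' / v2 * u2).factorization p := by rw [h.H_eq]
  rw [Nat.factorization_mul hH0.ne' h.fil'.m_pos.ne', Finsupp.add_apply, hv0, add_zero] at e3
  rw [← e3]
  omega

/-- the shifted number, filled, is `H` -/
theorem PairX.div_eq (h : PairX g x i R R' u1 u2 v1 v2 H) : R' / v2 * u2 / v1 = H := by
  rw [← h.H_eq, Nat.mul_div_cancel _ h.fil'.m_pos]

theorem PairX.sub (h : PairX g x i R R' u1 u2 v1 v2 H) :
    (u2 * v2).primeFactors ⊆ Dvx g x R ∧ (u2 * v2).primeFactors ⊆ Dvx g x R' := by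
  constructor
  · intro p hp
    obtain ⟨d1, -, d3, -⟩ := h.dev p hp
    exact mem_filter.2 ⟨mem_Icc.2 ⟨d1, le_N_of_lt_kc d3⟩, Nat.prime_of_mem_primeFactors hp, d3⟩
  · intro p hp
    obtain ⟨d1, -, -, d4⟩ := h.dev p hp
    exact mem_filter.2 ⟨mem_Icc.2 ⟨d1, le_N_of_lt_kc d4⟩, Nat.prime_of_mem_primeFactors hp, d4⟩

end

/-! ### The kernel inequality -/

theorem f_posX {q : ℕ} (hq : 0 < q) : 0 < f g q := by
  unfold f
  have h2 : (0 : ℝ) < max 1 g.X := lt_of_lt_of_le one_pos (le_max_left _ _)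
  have h3 : (0 : ℝ) < q.totient := by exact_mod_cast Nat.totient_pos.2 hq
  positivity

theorem f_mul_le {h b : ℕ} (hh : 0 < h) (hb : 0 < b) : f g (h * b) ≤ b * f g h := by
  have h1 := totient_mul_le hh hb
  unfold f
  have h2 : (0 : ℝ) < max 1 g.X := lt_of_lt_of_le one_pos (le_max_left _ _)
  rw [mul_div_assoc', div_le_div_iff_of_pos_right h2]
  exact h1

theorem kernel_ineq {θ F F' W W' P1 PH r r' u v a b : ℝ} (hθ : 0 < θ) (hθ' : θ < 1)
    (hF : 0 ≤ F) (hF' : 0 ≤ F') (hW : 0 ≤ W) (hW' : 0 ≤ W') (hP1 : 0 ≤ P1) (hPH : 0 ≤ PH)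
    (hr : 0 < r) (hr' : 0 < r') (hu : 0 < u) (hv : 0 < v) (ha : 0 < a) (hb : 0 < b)
    (h1 : r ≤ u * P1) (h2 : r' ≤ v * PH) (h3 : P1 * W' = PH * W) :
    (F * W' / (u * a)) ^ θ * (F' * W / (v * b)) ^ (1 - θ) ≤
      a ^ (-θ) * b ^ (-(1 - θ)) * ((F / r) ^ θ * (F' / r') ^ (1 - θ) * (P1 * W')) := by
  have hθ1 : 0 < 1 - θ := by linarith
  have hPW : 0 ≤ P1 * W' := mul_nonneg hP1 hW'
  have e1 : P1 * W' = (P1 * W') ^ θ * (PH * W) ^ (1 - θ) := by
    rw [← h3, ← Real.rpow_add' hPW (by linarith), show θ + (1 - θ) = 1 by ring, Real.rpow_one]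
  have e2 : a ^ (-θ) * b ^ (-(1 - θ)) * ((F / r) ^ θ * (F' / r') ^ (1 - θ) * (P1 * W')) =
      (a⁻¹ * (F / r) * (P1 * W')) ^ θ * (b⁻¹ * (F' / r') * (PH * W)) ^ (1 - θ) := by
    rw [Real.mul_rpow (by positivity) hPW, Real.mul_rpow (by positivity) (by positivity),
      Real.mul_rpow (x := b⁻¹ * (F' / r')) (by positivity) (mul_nonneg hPH hW),
      Real.mul_rpow (x := b⁻¹) (by positivity) (by positivity), Real.inv_rpow ha.le,
      Real.inv_rpow hb.le, Real.rpow_neg ha.le, Real.rpow_neg hb.le]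
    nth_rw 1 [e1]
    ring
  rw [e2]
  refine mul_le_mul (Real.rpow_le_rpow (by positivity) ?_ hθ.le)
    (Real.rpow_le_rpow (by positivity) ?_ hθ1.le) (by positivity) (by positivity)
  · have e3 : 1 / u ≤ P1 / r := by
      rw [div_le_div_iff₀ hu hr]
      linarith
    calc F * W' / (u * a) = a⁻¹ * F * W' * (1 / u) := by
          field_simp
      _ ≤ a⁻¹ * F * W' * (P1 / r) := mul_le_mul_of_nonneg_left e3 (by positivity)
      _ = _ := by ring
  · have e3 : 1 / v ≤ PH / r' := by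
      rw [div_le_div_iff₀ hv hr']
      linarith
    calc F' * W / (v * b) = b⁻¹ * F' * W * (1 / v) := by
          field_simp
      _ ≤ b⁻¹ * F' * W * (PH / r') := mul_le_mul_of_nonneg_left e3 (by positivity)
      _ = _ := by ring

/-- the exponents of the pattern -/
theorem pat_ineq {a b : ℕ} (ha : 0 < a) (hb : 0 < b) (θ : ℝ) :
    ((a : ℝ) * b) ^ (min θ (1 - θ) - 2 / 5) * ((a : ℝ) ^ (-θ) * (b : ℝ) ^ (-(1 - θ))) ≤
      ((a : ℝ) * b) ^ (-(2 / 5) : ℝ) := by
  have ha1 : (1 : ℝ) ≤ a := by exact_mod_cast ha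
  have hb1 : (1 : ℝ) ≤ b := by exact_mod_cast hb
  have ha0 : (0 : ℝ) < a := by linarith
  have hb0 : (0 : ℝ) < b := by linarith
  have e1 : (a : ℝ) ^ (-θ) ≤ (a : ℝ) ^ (-(min θ (1 - θ))) :=
    Real.rpow_le_rpow_of_exponent_le ha1 (neg_le_neg (min_le_left _ _))
  have e2 : (b : ℝ) ^ (-(1 - θ)) ≤ (b : ℝ) ^ (-(min θ (1 - θ))) :=
    Real.rpow_le_rpow_of_exponent_le hb1 (neg_le_neg (min_le_right _ _))
  calc ((a : ℝ) * b) ^ (min θ (1 - θ) - 2 / 5) * ((a : ℝ) ^ (-θ) * (b : ℝ) ^ (-(1 - θ))) ≤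
        ((a : ℝ) * b) ^ (min θ (1 - θ) - 2 / 5) *
          ((a : ℝ) ^ (-(min θ (1 - θ))) * (b : ℝ) ^ (-(min θ (1 - θ)))) :=
        mul_le_mul_of_nonneg_left (mul_le_mul e1 e2 (by positivity) (by positivity))
          (by positivity)
    _ = _ := by
        rw [← Real.mul_rpow ha0.le hb0.le, ← Real.rpow_add (by positivity)]
        congr 1
        ring

end Vale.P028.SK
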