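-- RD-BASE 7ae95e0c6e757774783452c475b3ffa48e41dc0d
import Vale.Agent.P028.MathlibUsed
import Vale.Agent.P028.RD.H734.X2P
import Vale.Agent.P028.RD.R367.X2Out
attribute [-instance] ProperSMul.toContinuousSMul IsTopologicalTorsor.toContinuousSMul IdemSemiring.toCanonicallyOrderedAdd IdemSemiring.toMulLeftMono IdemSemiring.toMulRightMono AddQuantale.instAddLeftMono AddQuantale.instAddRightMono Quantale.instMulLeftMono Quantale.instMulRightMono FiniteDimensional.rclike_to_real IsScalarTower.complexToReal FiniteDimensional.complexToReal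

/-!
# The energy theorem at a cut
-/

namespace Vale.P028.SK

open Finset CF RN

/-- the constant of the energy theorem for one exponent -/
noncomputable def cX2 (c1 c θ : ℝ) : ℝ :=
  1 / (1 - c) * Real.exp (2 * c * c1) * Real.exp (2 * c * c1) * (1 / θ + 1 / (1 - θ))

theorem cX2_nonneg {c1 c θ : ℝ} (hc1 : c < 1) (hθ : 0 < θ) (hθ' : θ < 1) : 0 ≤ cX2 c1 c θ := by
  have h1 : 0 < 1 - c := by linarith
  have h2 : 0 < 1 - θ := by linarith
  unfold cX2
  positivity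

theorem x2t {c1 c θ : ℝ} (h1 : 0 < c1) (hc : 0 ≤ c) (hc1 : c < 1) (hθ : 0 < θ) (hθ' : θ < 1) :
    X2t c1 c θ (cX2 c1 c θ * Real.exp 1) :=
  X2t_of_X2P h1.le hc hθ hθ' (cX2_nonneg hc1 hθ hθ') (x2p h1 hc hc1 hθ hθ')

/-- **The energy theorem at a cut** -/
theorem x2 {c1 c : ℝ} (h1 : 0 < c1) (hc : 0 ≤ c) (hc1 : c < 1) :
    X2 c1 c (cX2 c1 c (1 / 2) * Real.exp 1 + cX2 c1 c (9 / 20) * Real.exp 1) :=
  X2_of_X2t h1.le hc
    (mul_nonneg (cX2_nonneg hc1 (by norm_num) (by norm_num)) (Real.exp_pos _).le)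
    (mul_nonneg (cX2_nonneg hc1 (by norm_num) (by norm_num)) (Real.exp_pos _).le)
    (x2t h1 hc hc1 (by norm_num) (by norm_num)) (x2t h1 hc hc1 (by norm_num) (by norm_num))

theorem x2_ex {c1 c : ℝ} (h1 : 0 < c1) (hc : 0 ≤ c) (hc1 : c < 1) :
    ∃ C, 0 ≤ C ∧ X2 c1 c C :=
  ⟨_, add_nonneg (mul_nonneg (cX2_nonneg hc1 (by norm_num) (by norm_num)) (Real.exp_pos _).le)
    (mul_nonneg (cX2_nonneg hc1 (by norm_num) (by norm_num)) (Real.exp_pos _).le), x2 h1 hc hc1⟩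

end Vale.P028.SK
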